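import Vale.Agent.P128.Assemble

/-!
# P128: every reduced global Mumford-Shah minimiser of the plane is one of the four known types
-/

open MeasureTheory Set Metric Filter
open scoped ENNReal Topology Real

noncomputable section

namespace Vale.Agent.Results.P128.GlobalMinimisers

open Vale.Agent.P128

/-- Classification of the reduced global minimisers: empty crack, line, tripod, crack tip. -/
theorem result : ∀ P : Pair, IsGlobalMinimizer P → IsReduced P.K →
    (P.K = ∅ ∧ ∃ c : ℝ, ∀ᵐ z, P.u z = c) ∨
      ((∀ z ∉ P.K, ∃ c : ℝ, ∀ᵐ w, w ∈ connectedComponentIn P.Kᶜ z → P.u w = c) ∧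
        (IsLineSet P.K ∨ IsTripodSet P.K)) ∨
      ∃ a θ k, ∃ s : ℝ, (s = 1 ∨ s = -1) ∧ P.K = ray a (θ + π) ∧
        ∀ᵐ z, P.u z = crackTip a θ k s z :=
  pairClassificationAll bridge classification_of_pieces

end Vale.Agent.Results.P128.GlobalMinimisers
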