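import Vale.Agent.P128.Final

/-!
# P128: the Mumford-Shah conjecture in the plane, interior form
-/

open MeasureTheory Set
open scoped ENNReal

namespace Vale.Agent.Results.P128.MumfordShah

open Vale.Agent.P128 Vale.Agent.P128.Bridge Vale.Agent.P128.Regularity

/-- Near each point of a reduced minimiser, `K` is a `C^{1,α}` arc through the point, an arc ending
there, or three arcs meeting there at `120°`. -/
theorem result :
    ∀ (Ω : Set ℂ) (g : ℂ → ℝ) (P : Admissible Ω), IsOpen Ω → MemLp g ⊤ (volume.restrict Ω) →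
      IsMinimizer Ω g P → IsReducedIn Ω P.K → ∀ x ∈ P.K,
        ∃ (N : Set ℂ) (α : ℝ), IsOpen N ∧ x ∈ N ∧ N ⊆ Ω ∧ 0 < α ∧
          (IsInteriorPoint P.K N x α ∨ IsEndPoint P.K N x α ∨ IsTriplePoint P.K N x α) :=
  q1

end Vale.Agent.Results.P128.MumfordShah
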